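import Crest.Agent.R166.P.Tree
import Crest.Agent.R166.P.Switch
import Crest.Agent.R166.P.Simple
import Crest.Agent.R166.P.Graph
import Crest.Agent.R166.P.Lln

/-!
# R166/P/Main: block P.  `stP1` (Simple), `stP2` (Graph), `stP3` (Tree), `stP4` (Lln), `stP5` (Switch).
-/
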